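import Vale.Agent.P141.H540.GenRA

/-!
# P141, line (A): delayed generations of the moving slot

Letters of `H540.GenRA`.  `gA j k a b` : the generation at the ancestors of scale `min j n` of the
cells `a`, `b` of scale `k`.  For a nondecreasing sequence of delays `Dl` the signs of the
generation `g` are `sD g = s * (1[gA (k + Dl g) ≥ g] - 1[gA (k + Dl (g + 1)) ≥ g + 1])`.

* `sD_sum`, `RD_sum` : the sum over the generations;
* `sD_near` : a layer of generation `g + 1` at a point with the same ancestor of scale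
  `k + Dl (g + 1)` as `y` sees the generation of the path of `y`;
* `RD_cap` : the cap `κ g + 1 + Dl g + Dl (g + 1)`;
* `RD_end`, `RD_next` : the energies.
-/

namespace Vale.Agent.P141.H289

open Finset Matrix
open Vale.Agent.P141.PL (Pt iv hs ix mem_iv ix_ix)
open Vale.Agent.P141.H970
open Vale.Agent.P141.H43 (nsq nsq_nonneg)
open Vale.Agent.P141.H483 (tmean)
open Vale.Agent.P141.H690 (MX Qs Qs_trace_eq XT XT_symm XT_sum_le' XT_psd)
open Vale.Agent.P141.H540 (XS XS_eq gmm gmm_eq gn_st sG thS thS_le MT_eq_MX Rm_gen Rm_cap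
  Rm_energy_all prob_top s0 s0_le RT_Rm)
open Vale.Agent.P141.H677 (KT GT MT RT rv sN ix_two ix_le)

noncomputable section

open scoped Classical

set_option linter.unusedSectionVars false

variable {ι : Type*} [Fintype ι] [DecidableEq ι]

/-! ### Vectors -/

theorem tri2 {p q V : ℝ} (hp : 0 ≤ p) (hq : 0 ≤ q) (hV : 0 ≤ V) {a b : ι → ℝ}
    (ha : nsq a ≤ p ^ 2 * V) (hb : nsq b ≤ q ^ 2 * V) : nsq (a + b) ≤ (p + q) ^ 2 * V := by
  have hcs := H186.dot_sq_le a b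
  have a0 := nsq_nonneg a
  have b0 := nsq_nonneg b
  have h1 : (a ⬝ᵥ b) ^ 2 ≤ (p * q * V) ^ 2 := by
    refine hcs.trans ?_
    calc (a ⬝ᵥ a) * (b ⬝ᵥ b) ≤ (p ^ 2 * V) * (q ^ 2 * V) := mul_le_mul ha hb b0 (by positivity)
      _ = _ := by ring
  have h2 : a ⬝ᵥ b ≤ p * q * V := (abs_le_of_sq_le_sq' h1 (by positivity)).2
  rw [H43.nsq_add]
  nlinarith

/-- a weighted sum of short vectors -/
theorem nsq_wsum {J : Type*} (S : Finset J) (c : J → ℝ) (u : J → ι → ℝ) {V : ℝ} (hV : 0 ≤ V)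
    (h : ∀ i ∈ S, nsq (u i) ≤ V) : nsq (∑ i ∈ S, c i • u i) ≤ (∑ i ∈ S, |c i|) ^ 2 * V := by
  induction S using Finset.induction_on with
  | empty =>
    rw [sum_empty, sum_empty, H841.nsq_zero]
    simp
  | insert a S ha ih =>
    rw [sum_insert ha, sum_insert ha]
    refine tri2 (abs_nonneg _) (sum_nonneg fun _ _ => abs_nonneg _) hV ?_
      (ih fun i hi => h i (mem_insert_of_mem hi))
    rw [H841.nsq_smul, sq_abs]
    exact mul_le_mul_of_nonneg_left (h a (mem_insert_self a S)) (sq_nonneg _)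

/-- an antitone indicator and its shift by `D` -/
theorem shift_sum (f : ℕ → ℝ) (hf : ∀ i j, i ≤ j → f j ≤ f i) (h0 : ∀ i, 0 ≤ f i)
    (h1 : ∀ i, f i ≤ 1) (D k n : ℕ) : ∑ i ∈ Ico k n, |f (i + D) - f i| ≤ D := by
  rcases le_total n k with hn | hn
  · rw [Ico_eq_empty_of_le hn, sum_empty]
    exact Nat.cast_nonneg _
  have e1 : ∑ i ∈ Ico k n, |f (i + D) - f i| = ∑ i ∈ Ico k n, f i - ∑ i ∈ Ico k n, f (i + D) := by
    rw [← sum_sub_distrib]
    refine sum_congr rfl fun i _ => ?_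
    rw [abs_of_nonpos (by linarith [hf i (i + D) (by omega)])]
    ring
  have e2 : ∑ i ∈ Ico k n, f (i + D) = ∑ i ∈ Ico (k + D) (n + D), f i :=
    sum_Ico_add' f k n D
  have e3 : ∑ i ∈ Ico k (n + D), f i = ∑ i ∈ Ico k (k + D), f i +
      ∑ i ∈ Ico (k + D) (n + D), f i := by
    rw [sum_Ico_consecutive _ (by omega) (by omega)]
  have e4 : ∑ i ∈ Ico k n, f i ≤ ∑ i ∈ Ico k (n + D), f i :=
    sum_le_sum_of_subset_of_nonneg (Ico_subset_Ico_right (by omega)) fun i _ _ => h0 i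
  have e5 : ∑ i ∈ Ico k (k + D), f i ≤ D := by
    refine (sum_le_sum fun i _ => h1 i).trans (le_of_eq ?_)
    rw [sum_const, Nat.card_Ico, nsmul_eq_mul, mul_one, Nat.add_sub_cancel_left]
  rw [e1, e2]
  linarith

/-! ### The generation at the ancestors -/

section gen

variable (l : ℝ) (n : ℕ) (Kq : ℕ → ℤ → Matrix ι ι ℝ) (M : ℕ → ℝ) (o x1 : ℤ)
  (s : ℕ → ℤ → ℤ → ℝ)

/-- the generation at the ancestors of scale `min j n` of the cells `a`, `b` of scale `k` -/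
def gA (j k : ℕ) (a b : ℤ) : ℕ :=
  gmm l n Kq M o x1 s (min j n) (ix (min j n - k) a) (ix (min j n - k) b)

/-- the generation of the path of `x0` at the point `x3`, scale `min j n` -/
def pg (x3 : ℤ) (j : ℕ) (x0 : ℤ) : ℕ :=
  (st n M (XS l n Kq o x1 s x3) (n - min j n) (ix (min j n) x0)).1

/-- the signs of the delayed generation `g` -/
def sD (Dl : ℕ → ℕ) (g k : ℕ) (a b : ℤ) : ℝ :=
  s k a b * ((if g ≤ gA l n Kq M o x1 s (k + Dl g) k a b then 1 else 0) -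
    (if g + 1 ≤ gA l n Kq M o x1 s (k + Dl (g + 1)) k a b then 1 else 0))

variable {l n Kq M o x1 s}

theorem gA_eq {j k : ℕ} (hk : k ≤ n) (hkj : k ≤ j) (x0 x3 : ℤ) :
    gA l n Kq M o x1 s j k (ix k x0) (ix k x3) = pg l n Kq M o x1 s x3 j x0 := by
  unfold gA pg
  have h : k ≤ min j n := le_min hkj hk
  rw [ix_ix, ix_ix, Nat.add_sub_cancel' h]
  exact gmm_eq (min_le_right _ _) _ _

theorem pg_step (x3 : ℤ) (j : ℕ) (x0 : ℤ) :
    pg l n Kq M o x1 s x3 (j + 1) x0 ≤ pg l n Kq M o x1 s x3 j x0 := by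
  rcases le_or_gt n j with h | h
  · unfold pg
    rw [min_eq_right h, min_eq_right (show n ≤ j + 1 by omega)]
  · have hG := gn_st n M (XS l n Kq o x1 s x3)
    have h1 := hG.mono h (ix j x0)
    rw [← H841.ix_half] at h1
    unfold pg
    rw [min_eq_left h.le, min_eq_left (show j + 1 ≤ n by omega)]
    exact h1

theorem pg_anti (x3 : ℤ) {i j : ℕ} (h : i ≤ j) (x0 : ℤ) :
    pg l n Kq M o x1 s x3 j x0 ≤ pg l n Kq M o x1 s x3 i x0 := by
  induction j, h using Nat.le_induction with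
  | base => exact le_rfl
  | succ j _ ih => exact (pg_step x3 j x0).trans ih

theorem pg_le (x3 : ℤ) (j : ℕ) (x0 : ℤ) : pg l n Kq M o x1 s x3 j x0 ≤ n := by
  have h := (gn_st n M (XS l n Kq o x1 s x3)).count (min j n) (min_le_right _ _) (ix (min j n) x0)
  beta_reduce at h
  unfold pg
  omega

theorem pg_congr {x3 y : ℤ} {j : ℕ} (h : ix (min j n) x3 = ix (min j n) y) (x0 : ℤ) :
    pg l n Kq M o x1 s x3 j x0 = pg l n Kq M o x1 s y j x0 := by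
  have h1 := gmm_eq (l := l) (n := n) (Kq := Kq) (M := M) (o := o) (x1 := x1) (s := s)
    (min_le_right j n) (ix (min j n) x0) x3
  have h2 := gmm_eq (l := l) (n := n) (Kq := Kq) (M := M) (o := o) (x1 := x1) (s := s)
    (min_le_right j n) (ix (min j n) x0) y
  unfold pg
  rw [← h1, ← h2, h]

theorem gA_anti {i j k : ℕ} (hki : k ≤ i) (hij : i ≤ j) (a b : ℤ) :
    gA l n Kq M o x1 s j k a b ≤ gA l n Kq M o x1 s i k a b := by
  rcases le_or_gt k n with hk | hk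
  · have h1 := gA_eq (l := l) (Kq := Kq) (M := M) (o := o) (x1 := x1) (s := s) hk
      (hki.trans hij) (2 ^ k * a) (2 ^ k * b)
    have h2 := gA_eq (l := l) (Kq := Kq) (M := M) (o := o) (x1 := x1) (s := s) hk
      hki (2 ^ k * a) (2 ^ k * b)
    rw [ix_two, ix_two] at h1 h2
    rw [h1, h2]
    exact pg_anti _ hij _
  · unfold gA
    rw [min_eq_right (show n ≤ j by omega), min_eq_right (show n ≤ i by omega)]

theorem gA_le (j k : ℕ) (a b : ℤ) : gA l n Kq M o x1 s j k a b ≤ n := by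
  unfold gA H540.gmm
  have h := (gn_st n M (XS l n Kq o x1 s (2 ^ (min j n) * ix (min j n - k) b))).count (min j n)
    (min_le_right _ _) (ix (min j n - k) a)
  beta_reduce at h
  omega

/-! ### The signs -/

section signs

variable {Dl : ℕ → ℕ} (hD : ∀ g, Dl g ≤ Dl (g + 1))

include hD in
theorem sD_or (g k : ℕ) (a b : ℤ) :
    sD l n Kq M o x1 s Dl g k a b = s k a b ∨ sD l n Kq M o x1 s Dl g k a b = 0 := by
  have h := gA_anti (l := l) (n := n) (Kq := Kq) (M := M) (o := o) (x1 := x1) (s := s)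
    (show k ≤ k + Dl g by omega) (show k + Dl g ≤ k + Dl (g + 1) by have := hD g; omega) a b
  unfold sD
  by_cases h1 : g + 1 ≤ gA l n Kq M o x1 s (k + Dl (g + 1)) k a b
  · right
    rw [if_pos h1, if_pos (by omega), sub_self, mul_zero]
  · rw [if_neg h1, sub_zero]
    by_cases h2 : g ≤ gA l n Kq M o x1 s (k + Dl g) k a b
    · left
      rw [if_pos h2, mul_one]
    · right
      rw [if_neg h2, mul_zero]

include hD in
theorem sD_le (hs1 : ∀ k a b, |s k a b| ≤ 1) (g k : ℕ) (a b : ℤ) :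
    |sD l n Kq M o x1 s Dl g k a b| ≤ 1 := by
  rcases sD_or (l := l) (n := n) (Kq := Kq) (M := M) (o := o) (x1 := x1) (s := s) hD g k a b with
    h | h
  · rw [h]; exact hs1 _ _ _
  · rw [h]; simp

/-- a nonzero sign of the generation `g` sees the generation `g` at the delayed ancestor -/
theorem sD_ge {g k : ℕ} {a b : ℤ} (h : sD l n Kq M o x1 s Dl g k a b ≠ 0)
    (hm : gA l n Kq M o x1 s (k + Dl (g + 1)) k a b ≤ gA l n Kq M o x1 s (k + Dl g) k a b) :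
    g ≤ gA l n Kq M o x1 s (k + Dl g) k a b := by
  by_contra h2
  apply h
  unfold sD
  rw [if_neg h2, if_neg (by omega), sub_zero, mul_zero]

include hD in
/-- **near points**: a layer of generation `g` at `p` is charged to the path of `y`, if `p` and `y`
have the same ancestor of scale `k + Dl g` -/
theorem sD_near {g k : ℕ} (hk : k ≤ n) {x0 p y : ℤ}
    (hp : ix (min (k + Dl g) n) p = ix (min (k + Dl g) n) y)
    (h : sD l n Kq M o x1 s Dl g k (ix k x0) (ix k p) ≠ 0) :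
    g ≤ pg l n Kq M o x1 s y (k + Dl g) x0 := by
  have h1 := sD_ge h (gA_anti (by omega) (by have := hD g; omega) _ _)
  rw [gA_eq hk (by omega)] at h1
  rwa [pg_congr hp] at h1

/-- the sum over the generations -/
theorem sD_sum (k : ℕ) (a b : ℤ) :
    ∑ g ∈ range (n + 1), sD l n Kq M o x1 s Dl g k a b = s k a b := by
  unfold sD
  rw [← mul_sum, sum_range_sub' (fun g => if g ≤ gA l n Kq M o x1 s (k + Dl g) k a b then
    (1 : ℝ) else 0)]
  have h := gA_le (l := l) (n := n) (Kq := Kq) (M := M) (o := o) (x1 := x1) (s := s)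
    (k + Dl (n + 1)) k a b
  rw [if_pos (Nat.zero_le _), if_neg (by omega), sub_zero, mul_one]

end signs

/-! ### The start cells -/

variable (l n Kq M o x1 s) in
/-- the cell `a` of scale `j` of `x0` has a generation `≥ g + 1` on the path of the point `y` -/
def Dn (g : ℕ) (y : ℤ) (j : ℕ) (a : ℤ) : Prop :=
  g + 1 ≤ (st n M (XS l n Kq o x1 s y) (n - j) a).1

theorem Dn_anc {g : ℕ} {y : ℤ} {j : ℕ} (hj : j < n) {a : ℤ}
    (h : Dn l n Kq M o x1 s g y (j + 1) (a / 2)) : Dn l n Kq M o x1 s g y j a := by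
  have h1 := (gn_st n M (XS l n Kq o x1 s y)).mono hj a
  unfold Dn at h ⊢
  exact h.trans h1

theorem Dn_top (g : ℕ) (y a : ℤ) : ¬ Dn l n Kq M o x1 s g y n a := by
  have h1 := (gn_st n M (XS l n Kq o x1 s y)).topγ a
  unfold Dn
  beta_reduce at h1
  rw [h1]
  omega

/-- **near points** of the generation `g + 1` -/
theorem sD_h1 {Dl : ℕ → ℕ} (hD : ∀ g, Dl g ≤ Dl (g + 1)) (g : ℕ) {y : ℤ} {i : ℕ} (hi : i < n)
    {x0 p : ℤ} (hp : ix (min (i + 1 + Dl (g + 1)) n) p = ix (min (i + 1 + Dl (g + 1)) n) y)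
    (h : sD l n Kq M o x1 s Dl (g + 1) (i + 1) (ix (i + 1) x0) (ix (i + 1) p) ≠ 0) :
    Dn l n Kq M o x1 s g y (min (i + 1 + Dl (g + 1)) n)
      (ix (min (i + 1 + Dl (g + 1)) n) x0) := sD_near hD hi hp h

/-! ### The slot of a delayed generation -/

/-- indicator of a generation at least `g` on the path -/
def Ig (l : ℝ) (n : ℕ) (Kq : ℕ → ℤ → Matrix ι ι ℝ) (M : ℕ → ℝ) (o x1 : ℤ)
    (s : ℕ → ℤ → ℤ → ℝ) (x3 x0 : ℤ) (g j : ℕ) : ℝ :=
  if g ≤ pg l n Kq M o x1 s x3 j x0 then 1 else 0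

theorem Ig_anti (x3 x0 : ℤ) (g : ℕ) (i j : ℕ) (h : i ≤ j) :
    Ig l n Kq M o x1 s x3 x0 g j ≤ Ig l n Kq M o x1 s x3 x0 g i := by
  have h1 := pg_anti (l := l) (n := n) (Kq := Kq) (M := M) (o := o) (x1 := x1) (s := s) x3 h x0
  unfold Ig
  split_ifs
  · exact le_rfl
  · omega
  · norm_num
  · exact le_rfl

theorem Ig_bd (x3 x0 : ℤ) (g j : ℕ) : 0 ≤ Ig l n Kq M o x1 s x3 x0 g j ∧
    Ig l n Kq M o x1 s x3 x0 g j ≤ 1 := by
  unfold Ig
  split_ifs <;> norm_num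

theorem sD_pt (Dl : ℕ → ℕ) (g : ℕ) {k : ℕ} (hk : k ≤ n) (x0 x3 : ℤ) :
    sD l n Kq M o x1 s Dl g k (ix k x0) (ix k x3) = s k (ix k x0) (ix k x3) *
      (Ig l n Kq M o x1 s x3 x0 g (k + Dl g) - Ig l n Kq M o x1 s x3 x0 (g + 1) (k + Dl (g + 1))) := by
  unfold sD Ig
  rw [gA_eq hk (by omega), gA_eq hk (by omega)]

theorem sG_pt (g : ℕ) {k : ℕ} (hk : k ≤ n) (x0 x3 : ℤ) :
    sG l n Kq M o x1 s g k (ix k x0) (ix k x3) = s k (ix k x0) (ix k x3) *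
      (Ig l n Kq M o x1 s x3 x0 g k - Ig l n Kq M o x1 s x3 x0 (g + 1) k) := by
  have h := gA_eq (l := l) (Kq := Kq) (M := M) (o := o) (x1 := x1) (s := s) hk le_rfl x0 x3
  unfold gA at h
  rw [min_eq_left hk, Nat.sub_self] at h
  have z : ∀ x : ℤ, ix 0 x = x := fun x => by unfold ix; norm_num
  rw [z, z] at h
  unfold H540.sG Ig
  rw [h]
  by_cases h1 : pg l n Kq M o x1 s x3 k x0 = g
  · rw [if_pos h1, if_pos h1.ge, if_neg (by omega)]
    ring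
  · rw [if_neg h1]
    by_cases h2 : g ≤ pg l n Kq M o x1 s x3 k x0
    · rw [if_pos h2, if_pos (by omega)]
      ring
    · rw [if_neg h2, if_neg (by omega)]
      ring

theorem Lm_pt {Mx : ℕ → ℤ → Matrix ι ι ℝ} {s' : ℕ → ℤ → ℤ → ℝ} {i : ℕ} {x0 x3 : ℤ} {c : ℝ}
    (h : s' i (ix i x0) (ix i x3) = s i (ix i x0) (ix i x3) * c) (w : ι → ℝ) :
    H841.Lm Mx o x1 s' i x0 x3 *ᵥ w = c • (H841.Lm Mx o x1 s i x0 x3 *ᵥ w) := by
  unfold H841.Lm
  rw [h, smul_mulVec, smul_mulVec, smul_smul]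
  congr 1
  ring

/-- the slot of a delayed generation and the slot of the generation -/
theorem Rm_diff (Mx : ℕ → ℤ → Matrix ι ι ℝ) (Dl : ℕ → ℕ) (g : ℕ) (k : ℕ) (x0 x3 : ℤ)
    (w : ι → ℝ) :
    H841.Rm Mx o x1 (sD l n Kq M o x1 s Dl g) n k x0 x3 *ᵥ w =
      H841.Rm Mx o x1 (sG l n Kq M o x1 s g) n k x0 x3 *ᵥ w +
        (∑ i ∈ Ico k n, (Ig l n Kq M o x1 s x3 x0 g (i + 1 + Dl g) -
            Ig l n Kq M o x1 s x3 x0 g (i + 1)) • (H841.Lm Mx o x1 s (i + 1) x0 x3 *ᵥ w) -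
          ∑ i ∈ Ico k n, (Ig l n Kq M o x1 s x3 x0 (g + 1) (i + 1 + Dl (g + 1)) -
            Ig l n Kq M o x1 s x3 x0 (g + 1) (i + 1)) • (H841.Lm Mx o x1 s (i + 1) x0 x3 *ᵥ w)) := by
  unfold H841.Rm
  rw [Matrix.sum_mulVec, Matrix.sum_mulVec, ← sum_sub_distrib, ← sum_add_distrib]
  refine sum_congr rfl fun i hi => ?_
  have hi' : i + 1 ≤ n := by have := (mem_Ico.1 hi).2; omega
  rw [Lm_pt (sD_pt Dl g hi' x0 x3), Lm_pt (sG_pt g hi' x0 x3), ← sub_smul, ← add_smul]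
  congr 1
  ring

section props

variable {G : ℕ → ℤ → Matrix ι ι ℝ} (hT : H420.Tr l n G Kq) (hs1 : ∀ k a b, |s k a b| ≤ 1)
  (ho : o = 1 ∨ o = -1) {Dl : ℕ → ℕ} (hD : ∀ g, Dl g ≤ Dl (g + 1))

include hT hs1 in
theorem Lm_one {i : ℕ} (hi : i < n) (x0 x3 : ℤ) (w : ι → ℝ) :
    nsq (H841.Lm (MT l Kq) o x1 s (i + 1) x0 x3 *ᵥ w) ≤ nsq w := by
  refine (H841.Lm_le hs1 (i + 1) x0 x3 w).trans ?_
  unfold H841.Nn
  rw [MT_eq_MX]
  exact MX_op hT hi _ w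

include hT hs1 ho in
/-- **the cap of a delayed generation** -/
theorem cap_D {κ : ℕ → ℝ} (hκ : ∀ g, 0 < κ g) (g : ℕ) {k : ℕ} (hk : k ≤ n) (x0 x3 : ℤ)
    (w : ι → ℝ) :
    nsq (H841.Rm (MT l Kq) o x1 (sD l n Kq (fun g => κ g ^ 6) o x1 s Dl g) n k x0 x3 *ᵥ w) ≤
      (κ g + 1 + Dl g + Dl (g + 1)) ^ 2 * nsq w := by
  rw [Rm_diff]
  have w0 := nsq_nonneg w
  have hk0 := hκ g
  have h1 := Rm_cap (x1 := x1) hT hs1 ho hκ g hk x0 x3 w
  have part : ∀ g' D : ℕ, nsq (∑ i ∈ Ico k n,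
      (Ig l n Kq (fun g => κ g ^ 6) o x1 s x3 x0 g' (i + 1 + D) -
        Ig l n Kq (fun g => κ g ^ 6) o x1 s x3 x0 g' (i + 1)) •
        (H841.Lm (MT l Kq) o x1 s (i + 1) x0 x3 *ᵥ w)) ≤ (D : ℝ) ^ 2 * nsq w := by
    intro g' D
    refine (nsq_wsum _ _ _ w0 fun i hi => Lm_one hT hs1 (mem_Ico.1 hi).2 x0 x3 w).trans ?_
    refine mul_le_mul_of_nonneg_right ?_ w0
    refine pow_le_pow_left₀ (sum_nonneg fun _ _ => abs_nonneg _) ?_ 2
    have h := shift_sum (fun i => Ig l n Kq (fun g => κ g ^ 6) o x1 s x3 x0 g' (i + 1))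
      (fun i j hij => Ig_anti x3 x0 g' (i + 1) (j + 1) (by omega))
      (fun i => (Ig_bd x3 x0 g' (i + 1)).1) (fun i => (Ig_bd x3 x0 g' (i + 1)).2) D k n
    refine le_trans (le_of_eq (sum_congr rfl fun i _ => ?_)) h
    rw [show i + D + 1 = i + 1 + D by omega]
  have p1 := part g (Dl g)
  have p2 := part (g + 1) (Dl (g + 1))
  have h2 := tri2 (p := κ g + 1) (q := Dl g) (by positivity) (Nat.cast_nonneg _) w0 h1 p1
  rw [← neg_neg (∑ i ∈ Ico k n, (Ig l n Kq (fun g => κ g ^ 6) o x1 s x3 x0 (g + 1)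
    (i + 1 + Dl (g + 1)) - Ig l n Kq (fun g => κ g ^ 6) o x1 s x3 x0 (g + 1) (i + 1)) •
      (H841.Lm (MT l Kq) o x1 s (i + 1) x0 x3 *ᵥ w)), sub_neg_eq_add, ← add_assoc]
  refine tri2 (p := κ g + 1 + Dl g) (q := Dl (g + 1)) (by positivity) (Nat.cast_nonneg _) w0 h2 ?_
  have e : ∀ a : ι → ℝ, nsq (-a) = nsq a := fun a => by
    unfold H43.nsq
    rw [neg_dotProduct, dotProduct_neg, neg_neg]
  rw [e]
  exact p2

/-- energy of the cells with `γ ≥ g` -/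
theorem energy_ge {M' : ℕ → ℝ} {X : ℕ → ℤ → Matrix ι ι ℝ} {γ : ℕ → ℤ → ℕ}
    {R : ℕ → ℕ → ℤ → Matrix ι ι ℝ} (h : Gn n M' X γ R) (g : ℕ) {f : ℕ → ℤ → ℝ}
    (hf : ∀ j i, 0 ≤ f j i) {E : ℝ} (hE0 : 0 ≤ E) (hE : ∀ k ≤ n, ∀ m, H420.tsum f k m ≤ E) :
    ∀ k ≤ n, ∀ m, H420.tsum (fun j i => (if g ≤ γ j i then 1 else 0) * f j i) k m ≤
      E * tmean (Gn.ge γ g 0) k m := by
  intro k
  induction k with
  | zero =>
    intro _ m
    simp only [H420.tsum]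
    exact mul_nonneg hE0 (Gn.tmean_ge_nonneg _ _ _)
  | succ k ih =>
    intro hk m
    by_cases hg : g ≤ γ (k + 1) m
    · rw [h.tmean_ge_eq g (k + 1) hk m hg, mul_one]
      refine le_trans ?_ (hE (k + 1) hk m)
      refine H483.tsum_mono (n := n) (fun j _ i => ?_) (k + 1) hk m
      have h1 := hf (j + 1) i
      split_ifs
      · linarith
      · linarith
    · have h1 := ih (by omega) (2 * m)
      have h2 := ih (by omega) (2 * m + 1)
      simp only [H420.tsum, tmean, if_neg hg, zero_mul, zero_add]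
      linarith

include hD in
theorem Ig_sub (x3 x0 : ℤ) (g j : ℕ) :
    0 ≤ Ig l n Kq M o x1 s x3 x0 g (j + Dl g) - Ig l n Kq M o x1 s x3 x0 (g + 1) (j + Dl (g + 1)) ∧
    Ig l n Kq M o x1 s x3 x0 g (j + Dl g) - Ig l n Kq M o x1 s x3 x0 (g + 1) (j + Dl (g + 1)) ≤
      Ig l n Kq M o x1 s x3 x0 g j := by
  have h1 := (Ig_bd (l := l) (n := n) (Kq := Kq) (M := M) (o := o) (x1 := x1) (s := s) x3 x0
    (g + 1) (j + Dl (g + 1))).1
  have h2 := Ig_anti (l := l) (n := n) (Kq := Kq) (M := M) (o := o) (x1 := x1) (s := s) x3 x0 g j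
    (j + Dl g) (by omega)
  refine ⟨?_, by linarith⟩
  have h3 := pg_anti (l := l) (n := n) (Kq := Kq) (M := M) (o := o) (x1 := x1) (s := s) x3
    (show j + Dl g ≤ j + Dl (g + 1) by have := hD g; omega) x0
  rw [sub_nonneg]
  unfold Ig
  split_ifs
  · exact le_rfl
  · omega
  · norm_num
  · exact le_rfl

include hD in
/-- a layer of a delayed generation, as a tree -/
theorem XS_le (g j : ℕ) (hj : j ≤ n) (x3 i : ℤ) (w : ι → ℝ) :
    nsq (XS l n Kq o x1 (sD l n Kq M o x1 s Dl g) x3 j i *ᵥ w) ≤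
      (if g ≤ (st n M (XS l n Kq o x1 s x3) (n - j) i).1 then 1 else 0) *
        nsq (XS l n Kq o x1 s x3 j i *ᵥ w) := by
  have h1 := sD_pt (l := l) (n := n) (Kq := Kq) (M := M) (o := o) (x1 := x1) (s := s) Dl g hj
    (2 ^ j * i) x3
  rw [ix_two] at h1
  obtain ⟨c0, c1⟩ := Ig_sub (l := l) (n := n) (Kq := Kq) (M := M) (o := o) (x1 := x1) (s := s)
    hD x3 (2 ^ j * i) g j
  set c := Ig l n Kq M o x1 s x3 (2 ^ j * i) g (j + Dl g) -
    Ig l n Kq M o x1 s x3 (2 ^ j * i) (g + 1) (j + Dl (g + 1)) with hc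
  have e1 : XS l n Kq o x1 (sD l n Kq M o x1 s Dl g) x3 j i *ᵥ w =
      c • (XS l n Kq o x1 s x3 j i *ᵥ w) := by
    rw [XS_eq hj, XS_eq hj, h1, smul_mulVec, smul_mulVec, smul_smul]
    congr 1
    ring
  have e2 : Ig l n Kq M o x1 s x3 (2 ^ j * i) g j =
      if g ≤ (st n M (XS l n Kq o x1 s x3) (n - j) i).1 then 1 else 0 := by
    unfold Ig pg
    rw [min_eq_left hj, ix_two]
  rw [e1, H841.nsq_smul, ← e2]
  refine mul_le_mul_of_nonneg_right ?_ (nsq_nonneg _)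
  have b := Ig_bd (l := l) (n := n) (Kq := Kq) (M := M) (o := o) (x1 := x1) (s := s) x3
    (2 ^ j * i) g j
  nlinarith

include hD in
/-- the energy of a delayed generation is at most that of the whole slot -/
theorem end_D (g : ℕ) (t x3 : ℤ) (w : ι → ℝ) :
    ∑ x0 ∈ iv n t, nsq (H841.Rm (MT l Kq) o x1 (sD l n Kq M o x1 s Dl g) n 0 x0 x3 *ᵥ w) ≤
      ∑ x0 ∈ iv n t, nsq (H841.Rm (MT l Kq) o x1 s n 0 x0 x3 *ᵥ w) := by
  rw [Rm_energy_all, Rm_energy_all]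
  refine mul_le_mul_of_nonneg_left ?_ (by positivity)
  refine H483.tsum_mono (n := n) (fun j hj i => ?_) n le_rfl t
  refine (XS_le hD g (j + 1) hj x3 i w).trans ?_
  have h1 := nsq_nonneg (XS l n Kq o x1 s x3 (j + 1) i *ᵥ w)
  split_ifs
  · linarith
  · linarith

include hT hs1 ho in
/-- **the number of the points of `x0` with a generation `≥ g + 1` on the path of `y`** -/
theorem Dn_sum {κ : ℕ → ℝ} (hκ : ∀ g, 0 < κ g) (g : ℕ) (t y : ℤ) :
    ∑ x0 ∈ iv n t, (if Dn l n Kq (fun g => κ g ^ 6) o x1 s g y 0 x0 then (1 : ℝ) else 0) ≤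
      2520000 * (∑ a, ∑ x0 ∈ iv n t,
        nsq (H841.Rm (MT l Kq) o x1 s n 0 x0 y *ᵥ Pi.single a 1)) / κ g ^ 6 := by
  have hc : -3 ≤ o - 2 ∧ o - 2 ≤ -1 := by rcases ho with h | h <;> omega
  have hG := gn_st n (fun g => κ g ^ 6) (XS l n Kq o x1 s y)
  have hth := thS_le (s := s) hs1 y
  have h2 := prob_top hG (by norm_num : (0 : ℝ) < 3) (fun g => pow_pos (hκ g) 6)
    (XT_symm hT) (XT_psd (x1 := x1) (x3 := y) hT hth hc.1 hc.2) g t
  have h3 := H922.tmean_iv (Gn.ge (fun k m => (st n (fun g => κ g ^ 6) (XS l n Kq o x1 s y)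
    (n - k) m).1) (g + 1) 0) n t
  have h4 : (2 : ℝ) ^ n * (Qs (XS l n Kq o x1 s y) n t).trace =
      ∑ a, ∑ x0 ∈ iv n t, nsq (H841.Rm (MT l Kq) o x1 s n 0 x0 y *ᵥ Pi.single a 1) := by
    unfold H540.XS
    rw [Qs_trace_eq (XT_symm hT), mul_sum]
    refine sum_congr rfl fun a _ => ?_
    exact (Rm_energy_all (l := l) (Kq := Kq) (o := o) (x1 := x1) (s := s) t y _).symm
  rw [← h4]
  have h5 := mul_le_mul_of_nonneg_left h2 (by positivity : (0 : ℝ) ≤ 2 ^ n)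
  rw [h3] at h5
  refine le_trans (le_of_eq (sum_congr rfl fun x0 _ => ?_)) (h5.trans (le_of_eq ?_))
  · unfold Dn Gn.ge
    beta_reduce
    split_ifs <;> rfl
  · ring

include hT hs1 ho hD in
/-- **the energy of a later delayed generation** -/
theorem next_D {κ : ℕ → ℝ} (hκ : ∀ g, 0 < κ g) (g : ℕ) (t x3 : ℤ) (w : ι → ℝ) :
    ∑ x0 ∈ iv n t, nsq (H841.Rm (MT l Kq) o x1
        (sD l n Kq (fun g => κ g ^ 6) o x1 s Dl (g + 1)) n 0 x0 x3 *ᵥ w) ≤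
      3 * nsq w * (2520000 * (∑ a, ∑ x0 ∈ iv n t,
        nsq (H841.Rm (MT l Kq) o x1 s n 0 x0 x3 *ᵥ Pi.single a 1)) / κ g ^ 6) := by
  have hc : -3 ≤ o - 2 ∧ o - 2 ≤ -1 := by rcases ho with h | h <;> omega
  have hG := gn_st n (fun g => κ g ^ 6) (XS l n Kq o x1 s x3)
  have hth := thS_le (s := s) hs1 x3
  have h1 := energy_ge hG (g + 1) (f := fun j i => nsq (XS l n Kq o x1 s x3 j i *ᵥ w))
    (fun j i => nsq_nonneg _) (E := 3 * nsq w) (mul_nonneg (by norm_num) (nsq_nonneg w))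
    (fun k _ m => XT_sum_le' hT hth hc.1 hc.2 w k m) n le_rfl t
  have h3 := H922.tmean_iv (Gn.ge (fun k m => (st n (fun g => κ g ^ 6) (XS l n Kq o x1 s x3)
    (n - k) m).1) (g + 1) 0) n t
  have h4 := Dn_sum (x1 := x1) hT hs1 ho hκ g t x3
  have h5 : (2 : ℝ) ^ n * tmean (Gn.ge (fun k m => (st n (fun g => κ g ^ 6)
      (XS l n Kq o x1 s x3) (n - k) m).1) (g + 1) 0) n t ≤
      2520000 * (∑ a, ∑ x0 ∈ iv n t,
        nsq (H841.Rm (MT l Kq) o x1 s n 0 x0 x3 *ᵥ Pi.single a 1)) / κ g ^ 6 := by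
    rw [h3]
    refine le_trans (le_of_eq (sum_congr rfl fun x0 _ => ?_)) h4
    unfold Dn Gn.ge
    beta_reduce
    split_ifs <;> rfl
  rw [Rm_energy_all]
  have h6 : H420.tsum (fun j i => nsq (XS l n Kq o x1
      (sD l n Kq (fun g => κ g ^ 6) o x1 s Dl (g + 1)) x3 j i *ᵥ w)) n t ≤
      3 * nsq w * tmean (Gn.ge (fun k m => (st n (fun g => κ g ^ 6)
        (XS l n Kq o x1 s x3) (n - k) m).1) (g + 1) 0) n t := by
    refine le_trans ?_ h1
    exact H483.tsum_mono (n := n) (fun j hj i => XS_le hD (g + 1) (j + 1) hj x3 i w) n le_rfl t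
  have h7 := mul_le_mul_of_nonneg_left h6 (by positivity : (0 : ℝ) ≤ 2 ^ n)
  have h8 := mul_le_mul_of_nonneg_left h5 (mul_nonneg (by norm_num : (0 : ℝ) ≤ 3) (nsq_nonneg w))
  calc _ ≤ _ := h7
    _ = 3 * nsq w * (2 ^ n * tmean (Gn.ge (fun k m => (st n (fun g => κ g ^ 6)
        (XS l n Kq o x1 s x3) (n - k) m).1) (g + 1) 0) n t) := by ring
    _ ≤ _ := h8

end props

end gen

/-! ### The slot `RT` -/

section slot

variable {Al : ℕ → Pt → Prop} {o : ℤ} {K : ℕ} {P : Pt} {sg : ℕ → Pt → ℝ} {l : ℝ}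
  {u : ℤ → ℤ → ι → ℝ} {κ : ℕ → ℝ} {Dl : ℕ → ℕ}

/-- the signs of the delayed generation `g` of `RT` at the label point `x1` -/
def sgD (Al : ℕ → Pt → Prop) (o : ℤ) (K : ℕ) (P : Pt) (sg : ℕ → Pt → ℝ) (l : ℝ)
    (u : ℤ → ℤ → ι → ℝ) (κ : ℕ → ℝ) (Dl : ℕ → ℕ) (g : ℕ) (x1 : ℤ) : ℕ → ℤ → ℤ → ℝ :=
  sD l K (KT l u x1) (fun g => κ g ^ 6) o x1 (s0 Al o K P sg x1) Dl g

/-- **the slot of the delayed generation `g`** -/
def RD (Al : ℕ → Pt → Prop) (o : ℤ) (K : ℕ) (P : Pt) (sg : ℕ → Pt → ℝ) (l : ℝ)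
    (u : ℤ → ℤ → ι → ℝ) (κ : ℕ → ℝ) (Dl : ℕ → ℕ) (g j : ℕ) (x0 x3 x1 : ℤ) : Matrix ι ι ℝ :=
  H841.Rm (MT l (KT l u x1)) o x1 (sgD Al o K P sg l u κ Dl g x1) K j x0 x3

theorem sgD_le (hD : ∀ g, Dl g ≤ Dl (g + 1)) (hsg : ∀ k m, |sg k m| ≤ 1) (g : ℕ) (x1 : ℤ)
    (k : ℕ) (a b : ℤ) : |sgD Al o K P sg l u κ Dl g x1 k a b| ≤ 1 :=
  sD_le hD (s0_le hsg x1) g k a b

/-- the signs of a delayed generation are those of `RT` or zero -/
theorem sgD_or (hD : ∀ g, Dl g ≤ Dl (g + 1)) (g : ℕ) (x1 : ℤ) (k : ℕ) (a b : ℤ) :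
    sgD Al o K P sg l u κ Dl g x1 k a b = s0 Al o K P sg x1 k a b ∨
      sgD Al o K P sg l u κ Dl g x1 k a b = 0 := sD_or hD g k a b

/-- the signs vanish where the node is not alive -/
theorem sgD_off (g : ℕ) (x1 : ℤ) (k : ℕ) (a b : ℤ)
    (h : ((b, o - 2 - a - ix k x1 - b, ix k x1) : Pt) ∉ sN Al o K P (2 ^ k * a) k) :
    sgD Al o K P sg l u κ Dl g x1 k a b = 0 := by
  unfold sgD sD
  have e : s0 Al o K P sg x1 k a b = 0 := by
    unfold H540.s0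
    rw [if_neg h]
  rw [e, zero_mul]

/-- **`RT` is the sum of the delayed generations** -/
theorem RD_sum (j : ℕ) (x0 x3 x1 : ℤ) :
    ∑ g ∈ range (K + 1), RD Al o K P sg l u κ Dl g j x0 x3 x1 = RT Al o K P sg l u j x0 x3 x1 := by
  rw [RT_Rm]
  unfold RD H841.Rm
  rw [sum_comm]
  refine sum_congr rfl fun i _ => ?_
  unfold H841.Lm
  rw [← sum_smul, ← sum_mul]
  congr 2
  exact sD_sum (i + 1) _ _

theorem RD_symm (hl : 0 < l) (g : ℕ) (j : ℕ) (x0 x3 x1 : ℤ) :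
    (RD Al o K P sg l u κ Dl g j x0 x3 x1)ᵀ = RD Al o K P sg l u κ Dl g j x0 x3 x1 := by
  have hT := H677.tr_T hl K u x1
  unfold RD H841.Rm
  rw [transpose_sum]
  refine sum_congr rfl fun i _ => ?_
  unfold H841.Lm
  rw [transpose_smul, MT_eq_MX, H690.MX_symm hT]

/-- **the cap** -/
theorem RD_cap (hl : 0 < l) (ho : o = 1 ∨ o = -1) (hsg : ∀ k m, |sg k m| ≤ 1)
    (hκ : ∀ g, 0 < κ g) (g : ℕ) {j : ℕ} (hj : j ≤ K) (x0 x3 x1 : ℤ) (w : ι → ℝ) :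
    nsq (RD Al o K P sg l u κ Dl g j x0 x3 x1 *ᵥ w) ≤
      (κ g + 1 + Dl g + Dl (g + 1)) ^ 2 * nsq w :=
  cap_D (H677.tr_T hl K u x1) (s0_le hsg x1) ho hκ g hj x0 x3 w

/-- **the energy, every generation** -/
theorem RD_end (hl : 0 < l) (hD : ∀ g, Dl g ≤ Dl (g + 1)) (hsg : ∀ k m, |sg k m| ≤ 1) (g : ℕ)
    (T : Finset ℤ) (x3 x1 : ℤ) (w : ι → ℝ) :
    ∑ t ∈ T, ∑ x0 ∈ iv K t, nsq (RD Al o K P sg l u κ Dl g 0 x0 x3 x1 *ᵥ w) ≤
      2 ^ K * ((2 * l)⁻¹ * (w ⬝ᵥ GT u x1 K P.2.1 *ᵥ w)) := by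
  refine le_trans (sum_le_sum fun t _ => ?_)
    (H483.RT_end (A := Al) (o := o) (M := P) hl hsg T x3 x1 w)
  refine (end_D hD g t x3 w).trans (le_of_eq (sum_congr rfl fun x0 _ => ?_))
  rw [RT_Rm]
  rfl

/-- the sum of the top energies over the labels -/
theorem top_tr (hl : 0 < l) (hsg : ∀ k m, |sg k m| ≤ 1) (T : Finset ℤ) (x3 x1 : ℤ) :
    ∑ t ∈ T, ∑ a, ∑ x0 ∈ iv K t, nsq (H841.Rm (MT l (KT l u x1)) o x1
      (s0 Al o K P sg x1) K 0 x0 x3 *ᵥ Pi.single a 1) ≤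
      2 ^ K * ((2 * l)⁻¹ * (GT u x1 K P.2.1).trace) := by
  rw [sum_comm]
  have h2 : ∀ a : ι, ∑ t ∈ T, ∑ x0 ∈ iv K t, nsq (H841.Rm (MT l (KT l u x1)) o x1
      (s0 Al o K P sg x1) K 0 x0 x3 *ᵥ Pi.single a 1) ≤
      2 ^ K * ((2 * l)⁻¹ * ((Pi.single a (1 : ℝ) : ι → ℝ) ⬝ᵥ GT u x1 K P.2.1 *ᵥ
        Pi.single a 1)) := by
    intro a
    refine le_trans (le_of_eq (sum_congr rfl fun t _ => sum_congr rfl fun x0 _ => ?_))
      (H483.RT_end (A := Al) (o := o) (M := P) hl hsg T x3 x1 (Pi.single a 1))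
    rw [RT_Rm]
    rfl
  refine (sum_le_sum fun a _ => h2 a).trans (le_of_eq ?_)
  rw [← mul_sum, ← mul_sum]
  congr 2
  rw [Matrix.trace]
  refine sum_congr rfl fun a _ => ?_
  rw [mulVec_single_one, single_dotProduct, one_mul, col_apply, diag_apply]

/-- **the energy of a later generation, by the top trace alone** -/
theorem RD_next (hl : 0 < l) (ho : o = 1 ∨ o = -1) (hD : ∀ g, Dl g ≤ Dl (g + 1))
    (hsg : ∀ k m, |sg k m| ≤ 1) (hκ : ∀ g, 0 < κ g) (g : ℕ) (T : Finset ℤ) (x3 x1 : ℤ)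
    (w : ι → ℝ) :
    ∑ t ∈ T, ∑ x0 ∈ iv K t, nsq (RD Al o K P sg l u κ Dl (g + 1) 0 x0 x3 x1 *ᵥ w) ≤
      3 * nsq w * (2520000 * (2 ^ K * ((2 * l)⁻¹ * (GT u x1 K P.2.1).trace)) / κ g ^ 6) := by
  have h1 := sum_le_sum fun t (_ : t ∈ T) => next_D (x1 := x1) (H677.tr_T hl K u x1)
    (s0_le (Al := Al) (o := o) (K := K) (P := P) hsg x1) ho hD hκ g t x3 w
  refine h1.trans ?_
  rw [← mul_sum]
  refine mul_le_mul_of_nonneg_left ?_ (mul_nonneg (by norm_num) (nsq_nonneg w))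
  rw [← sum_div, ← mul_sum]
  exact div_le_div_of_nonneg_right (mul_le_mul_of_nonneg_left (top_tr hl hsg T x3 x1)
    (by norm_num)) (pow_pos (hκ g) 6).le

/-- the start cells of `RT` -/
def DnT (Al : ℕ → Pt → Prop) (o : ℤ) (K : ℕ) (P : Pt) (sg : ℕ → Pt → ℝ) (l : ℝ)
    (u : ℤ → ℤ → ι → ℝ) (κ : ℕ → ℝ) (x1 : ℤ) (g : ℕ) (y : ℤ) (j : ℕ) (a : ℤ) : Prop :=
  Dn l K (KT l u x1) (fun g => κ g ^ 6) o x1 (s0 Al o K P sg x1) g y j a

/-- **the number of the points of `x0` in a start cell, by the top trace alone** -/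
theorem DnT_sum (hl : 0 < l) (ho : o = 1 ∨ o = -1) (hsg : ∀ k m, |sg k m| ≤ 1)
    (hκ : ∀ g, 0 < κ g) (g : ℕ) (T : Finset ℤ) (y x1 : ℤ) :
    ∑ t ∈ T, ∑ x0 ∈ iv K t, (if DnT Al o K P sg l u κ x1 g y 0 x0 then (1 : ℝ) else 0) ≤
      2520000 * (2 ^ K * ((2 * l)⁻¹ * (GT u x1 K P.2.1).trace)) / κ g ^ 6 := by
  have h1 := sum_le_sum fun t (_ : t ∈ T) => Dn_sum (x1 := x1) (H677.tr_T hl K u x1)
    (s0_le (Al := Al) (o := o) (K := K) (P := P) hsg x1) ho hκ g t y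
  refine h1.trans ?_
  rw [← sum_div, ← mul_sum]
  exact div_le_div_of_nonneg_right (mul_le_mul_of_nonneg_left (top_tr hl hsg T y x1)
    (by norm_num)) (pow_pos (hκ g) 6).le

end slot

end

end Vale.Agent.P141.H289
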